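import Vale.Agent.P269CD.Defs

/-!
P269, block C: two more rows (the stabilised family, double counting off a null set).
-/

set_option autoImplicit false
set_option linter.all false

noncomputable section

namespace Vale.Agent.P269CD

open Set Filter MeasureTheory MvPolynomial Vale.Agent.P273.H183 Vale.Agent.P272.K Vale.Agent.P269C
open Vale.Agent.P269CT (pt mk Gen HolAt H)
open scoped Topology ContDiff Classical

/-- Row T5: the stabilised family near any point. -/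
def T5 : Prop := ∀ (L : Type) [Finite L] (m k : ℕ) (C : Fam L m) (σ : Cm k → C.X) (y₀ : Cm k),
  C.IsStable → (∀ᶠ y in 𝓝 y₀, HolAt C σ y) →
  ∃ (E : Fam (Option L) k) (Ψ : E.X → C.X), E.IsStable ∧ y₀ ∈ E.B ∧ ∀ y ∈ E.B, Gen C (σ y) →
    Mor (fg E) (fg C) (fun y => C.π (σ y)) Ψ y ∧ ∀ o, Ψ (E.s o y) = mk C (σ y) o

/-- Row DC2: double counting between two atlases of a groupoid, off a null set. -/
def DC2 : Prop := ∀ (D : ℕ) (ι κ : Type) [Fintype ι] [Fintype κ] (w : ι → Cm D → ℝ)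
  (ρ : κ → Cm D → ℝ) (T : ι → Cm D → ℂ) (T' : κ → Cm D → ℂ) (N : ι → κ → Cm D → Cm D → ℕ)
  (Z : ι → Set (Cm D)),
  (∀ a, Continuous (w a) ∧ HasCompactSupport (w a) ∧ volume (Z a) = 0) →
  (∀ b, Continuous (ρ b) ∧ HasCompactSupport (ρ b) ∧
    ∀ x ∈ tsupport (ρ b), ContinuousAt (T' b) x) →
  (∀ a, ∀ᵐ y, w a y ≠ 0 → ∑ b, ∑ᶠ x, (N a b y x : ℝ) * ρ b x = 1) →
  (∀ b, ∀ᵐ x, ρ b x ≠ 0 → ∑ a, ∑ᶠ y ∈ (Z a)ᶜ, (N a b y x : ℝ) * w a y = 1) →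
  (∀ a b, ∀ y₀ ∈ tsupport (w a), ∃ (k : ℕ) (φ : Fin k → Cm D → Cm D),
    (∀ j, AnalyticAt ℂ (φ j) y₀) ∧
    (∀ᶠ y in 𝓝 y₀, y ∉ Z a → ∀ x ∈ tsupport (ρ b),
      N a b y x = (Finset.univ.filter fun j => φ j y = x).card) ∧
    ∀ j, φ j y₀ ∈ tsupport (ρ b) →
      ∀ᶠ y in nae y₀, T a y = ((‖(jac (φ j) y).det‖ ^ 2 : ℝ) : ℂ) * T' b (φ j y)) →
  ∑ a, ∫ y, w a y * T a y = ∑ b, ∫ x, ρ b x * T' b x

end Vale.Agent.P269CD
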