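import Vale.Agent.P269CD.Defs2
import Vale.Agent.P269CK.Iso
import Vale.Agent.P269CV.K2

/-!
P269, block C: counting isomorphisms of pointed fibres.
-/

set_option autoImplicit false
set_option linter.all false

noncomputable section

namespace Vale.Agent.P269CD

open Set Filter MeasureTheory Vale.Agent.P273.H183 Vale.Agent.P272.K Vale.Agent.P269C
open Vale.Agent.P269CT (pt mk Gen HolAt H)
open Vale.Agent.P269CK (Is.bij Is.comp Is.inv Is.inv' Is.mark iso_ext fib_ne mark_mem)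
open Vale.Agent.P269CV (k2)
open scoped Topology ContDiff Classical

variable {L : Type} {D m m' m'' : ℕ}

/-- The number of isomorphisms which map `p` to `p'`. -/
def np (C : Fam L m) (b : Cm m) (p : C.X) (C' : Fam L m') (b' : Cm m') (p' : C'.X) : ℕ :=
  {Θ ∈ Iso C b C' b' | ∀ q : C.fib b, q.1 = p → Θ q = p'}.ncard

theorem iso_mem {C : Fam L m} {C' : Fam L m'} {b b'} {Θ : C.fib b → C'.X}
    (h : Θ ∈ Iso C b C' b') (q : C.fib b) : C'.π (Θ q) = b' := by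
  have h1 : Θ q ∈ C'.fib b' := h.2.2.1 ▸ mem_range_self q
  exact h1

theorem np_le {C : Fam L m} {C' : Fam L m'} {b b'} (hC : C.IsStable) (hC' : C'.IsStable)
    (hb : b ∈ C.B) {p : C.X} (hp : p ∈ C.fib b) (p' : C'.X) :
    {Θ ∈ Iso C b C' b' | ∀ q : C.fib b, q.1 = p → Θ q = p'}.encard ≤
      {Θ ∈ Iso C' b' C b | ∀ q : C'.fib b', q.1 = p' → Θ q = p}.encard := by
  have key : ∀ Θ : C.fib b → C'.X, ∃ Θ' : C'.fib b' → C.X, Θ ∈ Iso C b C' b' →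
      Θ' ∈ Iso C' b' C b ∧ ∀ (p : C.fib b) (q : C'.fib b'), Θ p = q → Θ' q = p := by
    intro Θ
    by_cases h : Θ ∈ Iso C b C' b'
    · obtain ⟨Φ, rfl⟩ := iso_ext (fib_ne hC hb) Θ
      obtain ⟨-, Ψ, h1, h2, -⟩ := Is.inv hC hC' hb h
      exact ⟨fun q => Ψ q, fun _ => ⟨h1, fun p q e => (congrArg Ψ e).symm.trans (h2 p p.2)⟩⟩
    · exact ⟨fun _ => p, fun h' => absurd h' h⟩
  choose J hJ using key
  refine encard_le_encard_of_injOn (f := J) (fun Θ h => ⟨(hJ Θ h.1).1, fun q hq =>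
    (hJ Θ h.1).2 ⟨p, hp⟩ q ((h.2 ⟨p, hp⟩ rfl).trans hq.symm)⟩) fun Θ h Θ' h' e => ?_
  funext p
  have h3 := (hJ Θ h.1).2 p ⟨_, iso_mem h.1 p⟩ rfl
  have h4 := (hJ Θ' h'.1).2 p ⟨_, iso_mem h'.1 p⟩ rfl
  rw [← e, ← h3] at h4
  exact (congrArg Subtype.val ((hJ Θ h.1).1.2.1 h4)).symm

theorem np_symm {C : Fam L m} {C' : Fam L m'} {b b'} (hC : C.IsStable) (hC' : C'.IsStable)
    (hb : b ∈ C.B) (hb' : b' ∈ C'.B) {p : C.X} (hp : p ∈ C.fib b) {p' : C'.X}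
    (hp' : p' ∈ C'.fib b') : np C b p C' b' p' = np C' b' p' C b p := by
  unfold np
  rw [ncard_def, ncard_def, le_antisymm (np_le hC hC' hb hp p') (np_le hC' hC hb' hp' p)]

theorem fs_card {α ι : Type} (s : Finset ι) (P : ι → Prop) (f : ι → α) (w : α → ℝ) (N : α → ℕ)
    (h : ∀ x, w x ≠ 0 → N x = (s.filter fun l => P l ∧ f l = x).card) :
    ∑ᶠ x, (N x : ℝ) * w x = ∑ l ∈ s, if P l then w (f l) else 0 := by
  have h1 : ∀ x, (N x : ℝ) * w x = ∑ l ∈ s, if P l ∧ f l = x then w x else 0 := by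
    intro x
    by_cases hx : w x = 0
    · simp [hx]
    · rw [h x hx, ← Finset.sum_filter, Finset.sum_const, nsmul_eq_mul]
  rw [finsum_congr h1, finsum_sum_comm]
  · refine Finset.sum_congr rfl fun l _ => ?_
    rw [finsum_eq_single _ (f l) fun x hx => if_neg fun k => hx k.2.symm]
    by_cases hl : P l <;> simp [hl]
  · intro l _
    refine (finite_singleton (f l)).subset fun x hx => ?_
    by_contra k
    exact hx (if_neg fun k' => k k'.2.symm)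

/-- Finitely many isomorphisms onto the fibres over a compact set. -/
theorem fin_iso {C₀ : Fam L m} {C : Fam L m'} {x : Cm m} (hC : Kur C) {K : Set (Cm m')}
    (hK : K ⊆ C.B) (hc : IsCompact K) (hf : IsCompact (C₀.fib x))
    (hs : ∀ i, C₀.π (C₀.s i x) = x) : {Θ | ∃ b ∈ K, Θ ∈ Iso C₀ x C b}.Finite := by
  have := hC.1.2.1
  rcases eq_empty_or_nonempty {Θ | ∃ b ∈ K, Θ ∈ Iso C₀ x C b} with h | ⟨Θ₀, b₁, hb₁, h₀⟩
  · rw [h]; exact finite_empty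
  have hne : (C₀.fib x).Nonempty := by
    obtain ⟨q, hq⟩ := fib_ne hC.1 (hK hb₁)
    rw [← h₀.2.2.1] at hq
    obtain ⟨p, -⟩ := hq
    exact ⟨p.1, p.2⟩
  obtain ⟨Φ₀, rfl⟩ := iso_ext hne Θ₀
  have hb := Is.bij (Φ := Φ₀) h₀
  have : Nonempty C₀.X := ⟨hne.some⟩
  have hi : ∀ p ∈ C₀.fib x, Function.invFunOn Φ₀ (C₀.fib x) (Φ₀ p) = p :=
    fun p hp => hb.injOn.leftInvOn_invFunOn hp
  have hΨ := Is.inv' (Φ := Φ₀) h₀ hf hs hi
  obtain ⟨k, φ, Φ, h⟩ := hC.2.2 m' C hC.1 b₁ (hK hb₁) K hK hc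
  obtain ⟨-, -, h3⟩ := h.self_of_nhds
  refine ((finite_range fun j (p : C₀.fib x) => Φ j (Φ₀ p))).subset ?_
  rintro Θ ⟨b, hb', hΘ⟩
  obtain ⟨Φ₁, rfl⟩ := iso_ext hne Θ
  obtain ⟨j, hj⟩ := h3 b hb' _ (Is.comp hΨ (Ψ := Φ₁) hΘ)
  refine ⟨j, funext fun p => ?_⟩
  have h4 := congrFun hj ⟨Φ₀ p, hb.mapsTo p.2⟩
  simp only [hi p p.2] at h4
  exact h4.symm

theorem Ch.p_e {C : Fam L D} (c : Ch C) {q : C.X} (hq : q ∈ c.e.source) :
    c.p (c.e q) = C.π q := by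
  rw [Ch.p, c.e.left_inv hq]

theorem Ch.p_cont {C : Fam L D} (c : Ch C) (hC : C.IsStable) : ContinuousOn c.p c.e.target :=
  (k2.cπ hC).comp_continuousOn c.e.continuousOn_symm

theorem Ch.p_mem {C : Fam L D} (c : Ch C) (hC : C.IsStable) (y) : c.p y ∈ C.B := hC.2.2.1 _

/-- The weighted count on the total space is the weighted count on the base. -/
theorem np_sum {C₀ : Fam L m} {C : Fam L D} {γ : Cm D → ℝ} (S : Sys C γ) {x : Cm m} (hC : Kur C)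
    (hγ : IsCompact (tsupport γ)) (hγ' : tsupport γ ⊆ C.B) (hf : IsCompact (C₀.fib x))
    (hs : ∀ i, C₀.π (C₀.s i x) = x) {p : C₀.X} (hp : p ∈ C₀.fib x) :
    ∑ j, ∑ᶠ y, (np C₀ x p C ((S.c j).p y) ((S.c j).e.symm y) : ℝ) * S.w j y =
      ∑ᶠ b, ((Iso C₀ x C b).ncard : ℝ) * γ b := by
  set K : Set (Cm D) := tsupport γ ∪ ⋃ j, (S.c j).p '' tsupport (S.w j) with hKd
  have hc : IsCompact K := hγ.union (isCompact_iUnion fun j =>
    (S.sm j).2.1.isCompact.image_of_continuousOn (((S.c j).p_cont hC.1).mono (S.sm j).2.2))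
  have hK : K ⊆ C.B := union_subset hγ' (iUnion_subset fun j => by
    rintro _ ⟨y, -, rfl⟩
    exact (S.c j).p_mem hC.1 y)
  have hfin := fin_iso hC hK hc hf hs
  have e1 : ∀ j, ∑ᶠ y, (np C₀ x p C ((S.c j).p y) ((S.c j).e.symm y) : ℝ) * S.w j y =
      ∑ Θ ∈ hfin.toFinset, if Θ ⟨p, hp⟩ ∈ (S.c j).e.source then S.w j ((S.c j).e (Θ ⟨p, hp⟩))
        else 0 := by
    intro j
    refine fs_card hfin.toFinset (fun Θ => Θ ⟨p, hp⟩ ∈ (S.c j).e.source)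
      (fun Θ => (S.c j).e (Θ ⟨p, hp⟩)) _ _ fun y hy => ?_
    have hy1 : y ∈ tsupport (S.w j) := subset_tsupport _ hy
    have hy2 := (S.sm j).2.2 hy1
    rw [np, ← ncard_coe_finset]
    congr 1
    ext Θ
    simp only [Finset.coe_filter, Finite.mem_toFinset, mem_ofPred_eq]
    constructor
    · rintro ⟨h1, h2⟩
      rw [h2 ⟨p, hp⟩ rfl]
      exact ⟨⟨_, Or.inr (mem_iUnion.2 ⟨j, y, hy1, rfl⟩), h1⟩, (S.c j).e.map_target hy2,
        (S.c j).e.right_inv hy2⟩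
    · rintro ⟨⟨b, -, h1⟩, h2, rfl⟩
      rw [(S.c j).p_e h2, iso_mem h1, (S.c j).e.left_inv h2]
      exact ⟨h1, fun q hq => congrArg Θ (Subtype.ext hq)⟩
  rw [Finset.sum_congr rfl fun j _ => e1 j, Finset.sum_comm,
    fs_card hfin.toFinset (fun _ => True) (fun Θ => C.π (Θ ⟨p, hp⟩)) γ _ fun b hb => ?_]
  · exact Finset.sum_congr rfl fun Θ _ => by rw [S.one, if_pos trivial]
  · rw [← ncard_coe_finset]
    congr 1
    ext Θ
    simp only [Finset.coe_filter, Finite.mem_toFinset, mem_ofPred_eq, true_and]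
    constructor
    · intro h1
      exact ⟨⟨b, Or.inl (subset_tsupport _ hb), h1⟩, iso_mem h1 _⟩
    · rintro ⟨⟨b', -, h1⟩, rfl⟩
      rwa [iso_mem h1]

/-- Composition with an isomorphism does not change the number of isomorphisms. -/
theorem card_post {C₀ : Fam L m} {E : Fam L m'} {F : Fam L m''} {x y f} {Ψ : E.X → F.X}
    {Ψ' : F.X → E.X} (hne : (C₀.fib x).Nonempty) (h : Is E y F f Ψ) (h' : Is F f E y Ψ')
    (hi : ∀ q ∈ E.fib y, Ψ' (Ψ q) = q) (hi' : ∀ q ∈ F.fib f, Ψ (Ψ' q) = q) :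
    (Iso C₀ x E y).ncard = (Iso C₀ x F f).ncard := by
  refine ncard_congr (fun Θ _ q => Ψ (Θ q)) (fun Θ hΘ => ?_) (fun Θ Θ' hΘ hΘ' e => ?_)
    fun Θ hΘ => ?_
  · obtain ⟨Φ, rfl⟩ := iso_ext hne Θ
    exact Is.comp (Φ := Φ) hΘ h
  · funext q
    rw [← hi _ (iso_mem hΘ q), ← hi _ (iso_mem hΘ' q)]
    exact congrArg Ψ' (congrFun e q)
  · obtain ⟨Φ, rfl⟩ := iso_ext hne Θ
    exact ⟨fun q => Ψ' (Φ q), Is.comp (Φ := Φ) hΘ h', funext fun q => hi' _ (iso_mem hΘ q)⟩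

end Vale.Agent.P269CD
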