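import Vale.Agent.P269C.Spec2
import Vale.Agent.P269CT.Defs

/-!
P269, block C: charts of the universal curve over an atlas, forms on them, and the rows.
-/

set_option autoImplicit false
set_option linter.all false

noncomputable section

namespace Vale.Agent.P269CD

open Set Filter MeasureTheory MvPolynomial Vale.Agent.P273.H183 Vale.Agent.P272.K Vale.Agent.P269C
open Vale.Agent.P269CT (pt mk Gen HolAt H)
open scoped Topology ContDiff Classical

variable {L : Type} {g D m k : ℕ}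

/-- `e` is a holomorphic chart of the total space. -/
def IsCh (C : Fam L D) (e : OpenPartialHomeomorph C.X (Cm (D + 1))) : Prop :=
  ∀ q ∈ e.source, ∀ f, C.hol f q ↔ AnalyticAt ℂ (fun y => f (e.symm y)) (e q)

/-- A chart of the total space which is adapted to one section or meets no section. -/
structure Ch (C : Fam L D) where
  /-- the chart -/
  e : OpenPartialHomeomorph C.X (Cm (D + 1))
  /-- the section -/
  ad : Option L
  hol : IsCh C e
  on : ∀ i, ad = some i → ∀ q ∈ e.source,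
    pr (e q) = C.π q ∧ C.s i (C.π q) ∈ e.source ∧ e (C.s i (C.π q)) = sl (C.π q)
  off : ∀ i, ad ≠ some i → ∀ q ∈ e.source, q ≠ C.s i (C.π q)

/-- The projection in a chart. -/
def Ch.p {C : Fam L D} (c : Ch C) (y : Cm (D + 1)) : Cm D := C.π (c.e.symm y)

/-- The last coordinate of a chart. -/
def Ch.z {C : Fam L D} (c : Ch C) (q : C.X) : ℂ := c.e q (Fin.last D)

/-- A map of total spaces in charts. -/
def Ch.tr {C C' : Fam L D} (c : Ch C) (c' : Ch C') (Φ : C.X → C'.X) (y : Cm (D + 1)) :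
    Cm (D + 1) := c'.e (Φ (c.e.symm y))

/-- Finitely many charts with weights whose sum is `γ ∘ π`. -/
structure Sys (C : Fam L D) (γ : Cm D → ℝ) where
  /-- the number of charts -/
  k : ℕ
  /-- the charts -/
  c : Fin k → Ch C
  /-- the weights -/
  w : Fin k → Cm (D + 1) → ℝ
  sm : ∀ j, ContDiff ℝ ∞ (w j) ∧ HasCompactSupport (w j) ∧ tsupport (w j) ⊆ (c j).e.target
  one : ∀ p, ∑ j, (if p ∈ (c j).e.source then w j ((c j).e p) else 0) = γ (C.π p)

/-- A chosen coordinate. -/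
def cz (C : Fam L m) (q : C.X) : C.X → ℂ := Classical.epsilon fun z => C.hol z q ∧ Co C z q

/-- The form `ψ_o` at generic points. -/
def gf (h : Hm (Option L)) (C : Fam L m) (σ : Cm k → C.X) (o : Option L) (y : Cm k) : Po k :=
  -dd (fun x => Real.log (H h C (σ x) o (cz C (mk C (σ y) o)))) y

/-- `v` is a potential of the generic form near `y`. -/
def Ex (f : Cm k → Po k) (y : Cm k) (v : Cm k → ℝ) : Prop :=
  ContDiffAt ℝ ∞ v y ∧ ∀ᶠ x in nae y, f x = -dd v x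

/-- The extension of a generic form. -/
def ex (f : Cm k → Po k) (y : Cm k) : Po k := -dd (Classical.epsilon (Ex f y)) y

/-- The ratio of the metrics on the cotangent line at the mark `i`. -/
def rat (h' : Hm (Option L)) (h : Hm L) (C : Fam L m) (i : L) (p : C.X) : ℝ :=
  H h' C p (some i) (cz C (C.s i (C.π p))) / h m C (C.π p) i (cz C (C.s i (C.π p)))

/-- Chart systems of the universal curve. -/
abbrev UC (A : Atlas g D L) : Type := ∀ a, Sys (A.C a) (A.ρ a)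

variable {A : Atlas g D L}

/-- The index set of the charts. -/
abbrev UC.J (U : UC A) : Type := Σ a : Fin A.k, Fin (U a).k

/-- The charts. -/
abbrev UC.c (U : UC A) (j : U.J) : Ch (A.C j.1) := (U j.1).c j.2

/-- The weights. -/
abbrev UC.w (U : UC A) (j : U.J) : Cm (D + 1) → ℝ := (U j.1).w j.2

/-- Forms on the charts of the universal curve. -/
abbrev UC.T (U : UC A) : Type := U.J → Cm (D + 1) → Po (D + 1)

/-- Forms on the charts of the base. -/
abbrev FB (A : Atlas g D L) : Type := Fin A.k → Cm D → Po D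

/-- Good natural forms on the base. -/
def GB (A : Atlas g D L) : Submonoid (FB A) where
  carrier := {β | (∀ a, ∀ b ∈ (A.C a).B, Gd b (β a)) ∧ ∀ a a' φ Φ, ∀ b ∈ (A.C a).B,
    (∀ᶠ x in 𝓝 b, Mor (A.C a) (A.C a') φ Φ x) → β a b = pb (jac φ b) (β a' (φ b))}
  one_mem' := ⟨fun _ _ _ => (Gd.cst 1).congr (Eventually.of_forall fun _ => by simp),
    fun _ _ _ _ _ _ _ => by simp⟩
  mul_mem' := fun h h' => ⟨fun a b hb => (h.1 a b hb).mul (h'.1 a b hb),
    fun a a' φ Φ b hb hm => by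
      rw [Pi.mul_apply, Pi.mul_apply, Pi.mul_apply, Pi.mul_apply, map_mul, ← h.2 a a' φ Φ b hb hm,
        ← h'.2 a a' φ Φ b hb hm]⟩

/-- Good natural forms on the universal curve. -/
def UC.G (U : UC A) : Submonoid U.T where
  carrier := {γ | (∀ j, ∀ y ∈ (U.c j).e.target, Gd y (γ j)) ∧ ∀ j j' φ Φ,
    ∀ y ∈ (U.c j).e.target, (∀ᶠ x in 𝓝 ((U.c j).p y), Mor (A.C j.1) (A.C j'.1) φ Φ x) →
      Φ ((U.c j).e.symm y) ∈ (U.c j').e.source →
      γ j y = pb (jac ((U.c j).tr (U.c j') Φ) y) (γ j' ((U.c j).tr (U.c j') Φ y))}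
  one_mem' := ⟨fun _ _ _ => (Gd.cst 1).congr (Eventually.of_forall fun _ => by simp),
    fun _ _ _ _ _ _ _ _ => by simp⟩
  mul_mem' := fun h h' => ⟨fun a b hb => (h.1 a b hb).mul (h'.1 a b hb),
    fun a a' φ Φ b hb hm hs => by
      rw [Pi.mul_apply, Pi.mul_apply, Pi.mul_apply, Pi.mul_apply, map_mul,
        ← h.2 a a' φ Φ b hb hm hs, ← h'.2 a a' φ Φ b hb hm hs]⟩

/-- The pull back of forms to the universal curve. -/
def UC.p (U : UC A) : FB A →* U.T where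
  toFun β j y := pb (jac (U.c j).p y) (β j.1 ((U.c j).p y))
  map_one' := by funext j y; simp
  map_mul' β β' := by funext j y; simp

/-- The integral over the universal curve. -/
def UC.I (U : UC A) (γ : U.T) : ℂ := ∑ j, ∫ y, U.w j y * tau (γ j y)

/-- The integral over the section `i`. -/
def UC.l (U : UC A) (i : L) (γ : U.T) : ℂ := ∑ j, if (U.c j).ad = some i then
  ∫ b, U.w j (sl b) * tau (pb (jac sl b) (γ j (sl b))) else 0

/-- The forms `ψ_o` of the curves with one more marked point. -/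
def UC.Y (U : UC A) (h : Hm (Option L)) (o : Option L) : U.T :=
  fun j => ex (gf h (A.C j.1) (U.c j).e.symm o)

/-- The forms `ψ_i` on the base. -/
def Ps (A : Atlas g D L) (h : Hm L) (i : L) : FB A := fun a b => psi h (A.C a) b i

/-- The polynomials in the forms `λ_k` on the base. -/
def La (A : Atlas g D L) (G : Gm g) (P : MvPolynomial ℕ ℂ) : FB A :=
  fun a b => aeval (lam G (A.C a) b) P

/-! ### rows -/

/-- Row T3: charts of the total space. -/
structure T3 : Prop where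
  ex : ∀ {L : Type} {D : ℕ} {C : Fam L D}, Kur C → ∀ p, ∃ e, p ∈ e.source ∧ IsCh C e
  co : ∀ {L : Type} {D : ℕ} {C : Fam L D}, C.IsStable → ∀ z p, C.hol z p → Co C z p →
    ∃ e, p ∈ e.source ∧ IsCh C e ∧ ∀ q ∈ e.source, e q = Fin.snoc (α := fun _ => ℂ) (C.π q) (z q)

/-- Row T2: the metrics on the total space. -/
structure T2 : Prop where
  all : ∀ {L : Type} [Finite L] {m k : ℕ} {h : Hm (Option L)} {C : Fam L m} {σ : Cm k → C.X}
    {y₀ : Cm k}, IsPsi h → C.IsStable → (∀ᶠ y in 𝓝 y₀, HolAt C σ y) → ∀ o,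
    ∃ (z : C.X → ℂ) (e : Cm k → ℂ) (v : Cm k → ℝ), ContDiffAt ℝ ∞ v y₀ ∧ 0 < v y₀ ∧
      AnalyticAt ℂ e y₀ ∧ ∀ᶠ y in 𝓝 y₀, Gen C (σ y) → Sm C (C.π (σ y)) →
        C.hol z (mk C (σ y) o) ∧ Co C z (mk C (σ y) o) ∧ e y ≠ 0 ∧
          H h C (σ y) o z = v y * ‖e y‖ ^ 2
  off : ∀ {L : Type} [Finite L] {m k : ℕ} {h : Hm (Option L)} {C : Fam L m} {σ : Cm k → C.X}
    {y₀ : Cm k}, IsPsi h → C.IsStable → (∀ᶠ y in 𝓝 y₀, HolAt C σ y) → ∀ i z,
    σ y₀ ≠ C.s i (C.π (σ y₀)) → C.hol z (C.s i (C.π (σ y₀))) → Co C z (C.s i (C.π (σ y₀))) →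
    ∃ v : Cm k → ℝ, ContDiffAt ℝ ∞ v y₀ ∧ 0 < v y₀ ∧
      ∀ᶠ y in 𝓝 y₀, Gen C (σ y) → H h C (σ y) (some i) z = v y
  on : ∀ {L : Type} [Finite L] {m k : ℕ} {h : Hm (Option L)} {C : Fam L m} {σ : Cm k → C.X}
    {y₀ : Cm k}, IsPsi h → C.IsStable → (∀ᶠ y in 𝓝 y₀, HolAt C σ y) → ∀ i z,
    σ y₀ = C.s i (C.π (σ y₀)) → C.hol z (σ y₀) → Co C z (σ y₀) → ∀ o, o = none ∨ o = some i →
    ∃ v : Cm k → ℝ, ContDiffAt ℝ ∞ v y₀ ∧ 0 < v y₀ ∧ ∀ᶠ y in 𝓝 y₀, Gen C (σ y) →
      H h C (σ y) o z = v y * ‖z (σ y) - z (C.s i (C.π (σ y)))‖ ^ 2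

/-- Row NULX: almost all points of a chart are generic points of smooth fibres. -/
def NULX : Prop := ∀ (L : Type) [Finite L] (D : ℕ) (C : Fam L D), Kur C → ∀ e, IsCh C e →
  ∀ᵐ y, y ∈ e.target → Gen C (e.symm y) ∧ Sm C (C.π (e.symm y))

/-- Row SYS: chart systems exist. -/
def SYS : Prop := ∀ (L : Type) [Finite L] (D : ℕ) (C : Fam L D) (γ : Cm D → ℝ), Kur C →
  ContDiff ℝ ∞ γ → IsCompact (tsupport γ) → tsupport γ ⊆ C.B → Nonempty (Sys C γ)

/-- Row BAS: the forms on the base, and the pull back. -/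
structure BAS : Prop where
  nb : ∀ {L : Type} {g D : ℕ} {A : Atlas g D L} {β}, NatB A β → β ∈ GB A
  p : ∀ {L : Type} {g D : ℕ} {A : Atlas g D L} (U : UC A), ∀ β ∈ GB A, U.p β ∈ U.G ∧
    U.I (U.p β) = 0 ∧ ∀ i, U.l i (U.p β) = A.int β

/-- Row YF: the forms `Y` in one chart. -/
structure YF : Prop where
  gen : ∀ {L : Type} [Finite L] {D : ℕ} {h : Hm (Option L)} {C : Fam L D} (c : Ch C), IsPsi h →
    Kur C → ∀ o, ∀ y ∈ c.e.target, Gd y (ex (gf h C c.e.symm o)) ∧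
      (Gen C (c.e.symm y) → Sm C (c.p y) → ex (gf h C c.e.symm o) y = gf h C c.e.symm o y)
  rat : ∀ {L : Type} [Finite L] {D : ℕ} {h' : Hm (Option L)} {h : Hm L} {C : Fam L D} (c : Ch C),
    IsPsi h' → IsPsi h → Kur C → ∀ i, ∃ v : Cm (D + 1) → ℝ, ∀ y ∈ c.e.target,
      ContDiffAt ℝ ∞ v y ∧
      ex (gf h' C c.e.symm (some i)) y = pb (jac c.p y) (psi h C (c.p y) i) - dd v y ∧
      (Gen C (c.e.symm y) → rat h' h C i (c.e.symm y) =
        (if c.ad = some i then ‖y (Fin.last D)‖ ^ 2 else 1) * Real.exp (v y))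
  bub : ∀ {L : Type} [Finite L] {D : ℕ} {h : Hm (Option L)} {C : Fam L D} (c : Ch C), IsPsi h →
    Kur C → ∀ i, c.ad = some i → ∀ o, o = none ∨ o = some i → ∃ v : Cm (D + 1) → ℝ,
      ∀ y ∈ c.e.target, ContDiffAt ℝ ∞ v y ∧ ex (gf h C c.e.symm o) y = -dd v y ∧
      (Gen C (c.e.symm y) → H h C (c.e.symm y) o c.z = ‖y (Fin.last D)‖ ^ 2 * Real.exp (v y))
  nat : ∀ {L : Type} {m m' : ℕ} {h' : Hm (Option L)} {h : Hm L} {C : Fam L m} {C' : Fam L m'}
    {b b' Φ}, IsPsi h' → IsPsi h → C.IsStable → C'.IsStable → b ∈ C.B → Is C b C' b' Φ →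
    ∀ i, ∀ p ∈ C.fib b, P269CD.rat h' h C i p = P269CD.rat h' h C' i (Φ p)

/-- Row YG: the forms `Y` are good and natural. -/
def YG : Prop := ∀ (L : Type) [Finite L] (g D : ℕ) (A : Atlas g D L) (U : UC A)
  (h : Hm (Option L)), IsPsi h → ∀ o, U.Y h o ∈ U.G

/-- Row KEYX: the theorem of Stokes on the universal curve. -/
def KEYX : Prop := ∀ (L : Type) [Finite L] (g D : ℕ) (A : Atlas g D L) (U : UC A)
  (u : U.J → Cm (D + 1) → ℝ) (R : ∀ a, (A.C a).X → ℝ),
  (∀ a a' b b' Φ, b ∈ (A.C a).B → Is (A.C a) b (A.C a') b' Φ → ∀ p ∈ (A.C a).fib b,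
    R a p = R a' (Φ p)) →
  (∀ j, ∀ y ∈ (U.c j).e.target, ContDiffAt ℝ ∞ (u j) y ∧
    (Gen (A.C j.1) ((U.c j).e.symm y) → u j y = R j.1 ((U.c j).e.symm y))) →
  ∀ γ ∈ U.G, ∑ j, ∫ y, U.w j y * tau (dd (u j) y * γ j y) = 0

/-- Row PLI: the comparison of `ψ_i` before and after adding a point. -/
def PLI : Prop := ∀ (L : Type) [Finite L] (g D : ℕ) (A : Atlas g D L) (U : UC A)
  (h' : Hm (Option L)) (h : Hm L), IsPsi h' → IsPsi h → ∀ i, ∀ γ ∈ U.G,
  U.I (U.Y h' (some i) * γ) = U.I (U.p (Ps A h i) * γ) + U.l i γ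

/-- Row LI: the restriction to the sections. -/
def LI : Prop := ∀ (L : Type) [Finite L] (g D : ℕ) (A : Atlas g D L) (U : UC A)
  (h' : Hm (Option L)) (h : Hm L), IsPsi h' → IsPsi h → ∀ i, ∀ γ ∈ U.G,
  U.l i (U.Y h' (some i) * γ) = 0 ∧ U.l i (U.Y h' none * γ) = 0 ∧
    ∀ j, j ≠ i → U.l i (U.Y h' (some j) * γ) = U.l i (U.p (Ps A h j) * γ)

/-- Row FUB: the degree of `ψ` on the fibres in genus one. -/
def FUB : Prop := ∀ (L : Type) [Fintype L] (D : ℕ) (A : Atlas 1 D L) (U : UC A)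
  (h' : Hm (Option L)), IsPsi h' → ∀ β ∈ GB A,
  U.I (U.Y h' none * U.p β) = Fintype.card L * A.int β

/-- Row RED: integrals over the stack of curves with one more point are integrals over the
universal curve. -/
def RED : Prop := ∀ (L : Type) [Fintype L] (g D : ℕ) (A : Atlas g D L) (U : UC A)
  (A' : Atlas g (D + 1) (Option L)) (G : Gm g) (h' : Hm (Option L)), IsLam G → IsPsi h' →
  2 < 2 * g + Fintype.card L → ∀ (P : MvPolynomial ℕ ℂ) (n : Option L → ℕ),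
  A'.int (La A' G P * ∏ o, Ps A' h' o ^ n o) = U.I (U.p (La A G P) * ∏ o, U.Y h' o ^ n o)

end Vale.Agent.P269CD
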