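import Vale.Agent.P269CD.Cnt
import Vale.Agent.P269CT.Sec
import Vale.Agent.P269CI.Keyb

/-!
P269, block C, row RED: integrals over the stack of curves with one more point.
-/

set_option autoImplicit false
set_option linter.all false

noncomputable section

namespace Vale.Agent.P269CD

open Set Filter MeasureTheory MvPolynomial Vale.Agent.P273.H183 Vale.Agent.P272.K Vale.Agent.P269C
open Vale.Agent.P269CT (pt mk Gen HolAt H π_s s_inj ex_co gen_iff isOpen_gen)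
open Vale.Agent.P269CK (Is.bij Is.comp Is.inv Is.inv' Is.mark iso_ext fib_ne mark_mem k1 is_fg
  iso_card Dr.refl)
open Vale.Agent.P269CV (k2)
open Vale.Agent.P269CI (cnt rho_zero)
open scoped Topology ContDiff Classical

variable {L : Type} {g D m m' k : ℕ}

theorem fib_cpt {C : Fam L m} (hC : C.IsStable) {b : Cm m} (hb : b ∈ C.B) :
    IsCompact (C.fib b) := hC.2.2.2.1 {b} (singleton_subset_iff.2 hb) isCompact_singleton

theorem Ch.holAt {C : Fam L D} (c : Ch C) {y : Cm (D + 1)} (hy : y ∈ c.e.target) :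
    HolAt C c.e.symm y :=
  ⟨c.e.continuousAt_symm hy, fun f hf => by
    have := (c.hol _ (c.e.map_target hy) f).1 hf
    rwa [c.e.right_inv hy] at this⟩

theorem np_pt (C' : Fam (Option L) m') (x : Cm m') (C : Fam L m) (b : Cm m) (p : C.X) :
    np (sub some C') x (C'.s none x) C b p = (Iso C' x (pt C p) b).ncard := by
  unfold np
  congr 1
  ext Θ
  constructor
  · rintro ⟨⟨h1, h2, h3, h4, h5⟩, h6⟩
    refine ⟨h1, h2, h3, fun o => ?_, h5⟩
    cases o with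
    | none => exact h6
    | some i => exact h4 i
  · rintro ⟨h1, h2, h3, h4, h5⟩
    exact ⟨⟨h1, h2, h3, fun i => h4 (some i), h5⟩, h4 none⟩

section
variable {C : Fam L m} {σ : Cm k → C.X} {E : Fam (Option L) k} {Ψ : E.X → C.X} {y : Cm k}

theorem is_pt (hm : Mor (fg E) (fg C) (fun y => C.π (σ y)) Ψ y)
    (hs : ∀ o, Ψ (E.s o y) = mk C (σ y) o) : Is E y (pt C (σ y)) (C.π (σ y)) Ψ :=
  is_fg.2 ⟨hm.2.2.1, fun o _ => hs o⟩

theorem np_loc (hC : C.IsStable) (hE : E.IsStable) (hy : y ∈ E.B)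
    (hm : Mor (fg E) (fg C) (fun y => C.π (σ y)) Ψ y) (hs : ∀ o, Ψ (E.s o y) = mk C (σ y) o)
    {C' : Fam (Option L) m'} (hC' : C'.IsStable) {x : Cm m'} (hx : x ∈ C'.B) :
    np (sub some C') x (C'.s none x) C (C.π (σ y)) (σ y) = (Iso E y C' x).ncard := by
  have h := is_pt hm hs
  have hb := Is.bij h
  have : T2Space (pt C (σ y)).X := hC.2.1
  have : Nonempty E.X := ⟨E.s none y⟩
  have hi : ∀ q ∈ E.fib y, Function.invFunOn Ψ (E.fib y) (Ψ q) = q :=
    fun q hq => hb.injOn.leftInvOn_invFunOn hq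
  rw [np_pt, iso_card hE hC' hy hx]
  exact (card_post (fib_ne hC' hx) h (Is.inv' h (fib_cpt hE hy) (mark_mem hE hy) hi) hi
    fun q hq => hb.surjOn.rightInvOn_invFunOn hq).symm

theorem sm_loc (hC : C.IsStable) (hE : E.IsStable)
    (hm : Mor (fg E) (fg C) (fun y => C.π (σ y)) Ψ y) (hs : Sm C (C.π (σ y))) : Sm E y :=
  fun q hq => (k1.nf hE hC hm.2.2.1 q hq).2.2.2.2.1 (hs _ ((Is.bij hm.2.2.1).mapsTo hq))

/-- The generic form is the form `ψ` of the stabilised family. -/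
theorem gf_eq (ps : PSI) (chn : CHN) {h : Hm (Option L)} (hh : IsPsi h) (hC : C.IsStable)
    (hE : E.IsStable) (hy : y ∈ E.B) (hσ : HolAt C σ y) (hg : Gen C (σ y))
    (hm : ∀ᶠ a in 𝓝 y, Mor (fg E) (fg C) (fun y => C.π (σ y)) Ψ a ∧
      ∀ o, Ψ (E.s o a) = mk C (σ a) o) (o : Option L) : gf h C σ o y = psi h E y o := by
  have hz : C.hol (cz C (mk C (σ y) o)) (mk C (σ y) o) ∧ Co C (cz C (mk C (σ y) o)) (mk C (σ y) o) :=
    Classical.epsilon_spec (ex_co hC (hg.sp_mk hC o))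
  unfold gf
  generalize cz C (mk C (σ y) o) = z at hz ⊢
  have hco : ∀ a ∈ E.B, (Mor (fg E) (fg C) (fun y => C.π (σ y)) Ψ a ∧
      ∀ o, Ψ (E.s o a) = mk C (σ a) o) → Co C z (mk C (σ a) o) →
      Co E (fun q => z (Ψ q)) (E.s o a) := fun a ha h1 h2 =>
    ((k1.nf hE hC h1.1.2.2.1 _ (mark_mem hE ha o)).2.2.1 z).1 (by rw [h1.2]; exact h2)
  have h0 := hm.self_of_nhds
  rw [ps.eq hh hE y hy o (fun q => z (Ψ q))
    ((h0.1.2.2.2 _ (mark_mem hE hy o)).2 z (by rw [h0.2]; exact hz.1)) (hco y hy h0 hz.2)]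
  congr 1
  refine chn.ddc _ _ _ ?_
  filter_upwards [hm, hE.1.mem_nhds hy, (hσ.mk hC o).1.eventually (k2.ev hC hz.1 hz.2)]
    with a h1 h2 h3
  have h4 := hh.1 k m E (pt C (σ a)) a (C.π (σ a)) _ (is_pt h1.1 h1.2) o (fun q => z (Ψ q))
    (fun q => z (Ψ q)) z 1 (mark_mem hE h2) (hco a h2 h1 h3.2) h3.2 (fun _ => rfl) (Dr.refl _ _)
  rw [norm_one, one_pow, one_mul] at h4
  rw [h4]
  rfl

theorem form_loc [Fintype L] (ps : PSI) (la : LAM) (chn : CHN) {G : Gm g} (hG : IsLam G)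
    {h : Hm (Option L)} (hh : IsPsi h) (hC : C.IsStable) (hE : E.IsStable)
    {C' : Fam (Option L) m'} (hC' : C'.IsStable) (hy : y ∈ E.B) (hσ : HolAt C σ y)
    (hg : Gen C (σ y)) (hs : Sm C (C.π (σ y)))
    (hm : ∀ᶠ a in 𝓝 y, Mor (fg E) (fg C) (fun y => C.π (σ y)) Ψ a ∧
      ∀ o, Ψ (E.s o a) = mk C (σ a) o) {φ : Cm k → Cm m'} {Φ : E.X → C'.X}
    (h4 : ∀ᶠ x in 𝓝 y, Mor E C' φ Φ x) (f : ∃ e : Fin g → Df C, Fr C (C.π (σ y)) e)
    (f' : ∃ e : Fin g → Df C', Fr C' (φ y) e) (P : MvPolynomial ℕ ℂ) (n : Option L → ℕ)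
    {Y : Option L → Po k} (hY : ∀ o, Y o = gf h C σ o y) :
    pb (jac (fun y => C.π (σ y)) y) (aeval (lam G C (C.π (σ y))) P) * ∏ o, Y o ^ n o =
      pb (jac φ y) (fm G h P n C' (φ y)) := by
  have e : (fun i => pb (jac (fun y => C.π (σ y)) y) (lam G C (C.π (σ y)) i)) =
      fun i => pb (jac φ y) (lam G C' (φ y) i) := by
    have h1 : ∀ᶠ a in 𝓝 y, Mor (fg E) (fg C) (fun y => C.π (σ y)) Ψ a := hm.mono fun _ h => h.1
    have h2 : ∀ᶠ a in 𝓝 y, Mor (fg E) (fg C') φ Φ a :=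
      h4.mono fun x hx => ⟨hx.1, hx.2.1, (is_fg.1 hx.2.2.1).1, hx.2.2.2⟩
    funext i
    have h3 := la.nat (φ₁ := fun y => C.π (σ y)) (Φ₁ := Ψ) (φ₂ := φ) (Φ₂ := Φ) hG hE hC hC' y hy
      (sm_loc hC hE hm.self_of_nhds.1 hs) h1 h2 f f' i
    exact h3
  rw [fm, map_mul, map_prod, comp_aeval_apply, comp_aeval_apply, e]
  refine congrArg _ (Finset.prod_congr rfl fun o _ => ?_)
  rw [map_pow, ← ps.nat hh hC' hE y hy h4 o, hY, gf_eq ps chn hh hC hE hy hσ hg hm o]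

end

theorem gen_of_np {C' : Fam (Option L) m'} {C : Fam L m} (hC' : C'.IsStable) (hC : C.IsStable)
    {x : Cm m'} (hx : x ∈ C'.B) (hs : Sm C' x) {p : C.X}
    (h : np (sub some C') x (C'.s none x) C (C.π p) p ≠ 0) : Gen C p ∧ Sm C (C.π p) := by
  obtain ⟨Θ, h1, h2⟩ := nonempty_of_ncard_ne_zero h
  obtain ⟨Φ, rfl⟩ := iso_ext (C := sub some C') (fib_ne (C := C') hC' hx) Θ
  have hI : Is (sub some C') x C (C.π p) Φ := h1
  have hb := Is.bij hI
  have h3 : Φ (C'.s none x) = p := h2 ⟨_, mark_mem hC' hx none⟩ rfl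
  have h4 : Sm C (C.π p) := fun q hq => by
    obtain ⟨r, hr, rfl⟩ := hb.surjOn hq
    exact (k1.nf hC' hC (is_fg.1 hI).1 r hr).2.2.2.2.2 (hs r hr)
  refine ⟨(gen_iff hC).2 ⟨h4 p rfl, fun i e => ?_⟩, h4⟩
  have h5 : Φ (C'.s (some i) x) = C.s i (C.π p) := Is.mark hI i (mark_mem hC' hx (some i))
  have h6 := hb.injOn (mark_mem hC' hx (some i)) (mark_mem hC' hx none) (h5.trans (e.trans h3.symm))
  exact Option.some_ne_none i (s_inj hC' hx h6)

theorem red (dc : DC2) (t5 : T5) (nx : NULX) (nul : NUL) (yf : YF) (pa : PART) (ba : BASN)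
    (ps : PSI) (la : LAM) (nb : NB) (ta : TAU) (chn : CHN) (gdc : GDC) : RED := by
  intro L _ g D A U A' G h' hG hh hst P n
  have hev : ∀ (j : U.J) y, y ∈ (U.c j).e.target →
      ∀ᶠ a in 𝓝 y, HolAt (A.C j.1) (U.c j).e.symm a := fun j y hy => by
    filter_upwards [(U.c j).e.open_target.mem_nhds hy] with a ha using (U.c j).holAt ha
  have hfm : ∀ b x, (La A' G P * ∏ o, Ps A' h' o ^ n o) b x = fm G h' P n (A'.C b) x := by
    intro b x
    simp only [Pi.mul_apply, Finset.prod_apply, Pi.pow_apply]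
    rfl
  have hU : ∀ (j : U.J) y, (U.p (La A G P) * ∏ o, U.Y h' o ^ n o) j y =
      pb (jac (U.c j).p y) (aeval (lam G (A.C j.1) ((U.c j).p y)) P) * ∏ o, U.Y h' o j y ^ n o := by
    intro j y
    simp only [Pi.mul_apply, Finset.prod_apply, Pi.pow_apply]
    rfl
  symm
  refine dc (D + 1) U.J (Fin A'.k) U.w A'.ρ
    (fun j y => tau ((U.p (La A G P) * ∏ o, U.Y h' o ^ n o) j y))
    (fun b x => tau ((La A' G P * ∏ o, Ps A' h' o ^ n o) b x))
    (fun j b y x => np (sub some (A'.C b)) x ((A'.C b).s none x) (A.C j.1) ((U.c j).p y)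
      ((U.c j).e.symm y))
    (fun j => {y | ¬ (y ∈ (U.c j).e.target → Gen (A.C j.1) ((U.c j).e.symm y) ∧
      Sm (A.C j.1) ((U.c j).p y))})
    (fun j => ⟨((U j.1).sm j.2).1.continuous, ((U j.1).sm j.2).2.1,
      ae_iff.1 (nx L D _ (A.kur j.1) _ (U.c j).hol)⟩) ?_ ?_ ?_ ?_
  · refine fun b => ⟨(A'.sm b).1.continuous, (A'.sm b).2.1, fun x hx => ?_⟩
    simp only [hfm]
    exact (ta.sm _ x ∞ (gdc _ x _ ((nb.fm A' hG hh P n).gd b x ((A'.sm b).2.2 hx))).sm).continuousAt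
  · intro j
    filter_upwards [nx L D _ (A.kur j.1) _ (U.c j).hol] with y h1 hy
    have hy' := ((U j.1).sm j.2).2.2 (subset_tsupport _ hy)
    have hC := (A.kur j.1).1
    obtain ⟨E, Ψ, hE, hyE, h2⟩ := t5 L D _ _ _ y hC (hev j y hy')
    obtain ⟨h3, h4⟩ := h2 y hyE (h1 hy').1
    obtain ⟨e', he'⟩ := A.fr j.1 _ ((U.c j).p_mem hC y)
    obtain ⟨e, he, -⟩ := ba _ _ _ _ g E (A.C j.1) y _ Ψ e' hE hC hyE
      (sm_loc hC hE h3 (h1 hy').2) h3.2.2.1 he'.self_of_nhds.1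
    rw [← A'.one _ E hE y hyE ⟨e, he⟩]
    refine Finset.sum_congr rfl fun b _ => finsum_congr fun x => ?_
    by_cases hx : x ∈ (A'.C b).B
    · exact congrArg (fun t : ℕ => (t : ℝ) * A'.ρ b x) (np_loc hC hE hyE h3 h4 (A'.kur b).1 hx)
    · rw [rho_zero A' b hx, mul_zero, mul_zero]
  · intro b
    filter_upwards [nul _ _ _ (A'.kur b)] with x h1 hx
    have hx' := (A'.sm b).2.2 (subset_tsupport _ hx)
    have hC' := (A'.kur b).1
    obtain ⟨e, he⟩ := A'.fr b x hx'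
    rw [← pa g D _ L A (A'.C b) hC' x hx' (h1 hx') ⟨e, he.self_of_nhds.1⟩ hst, Fintype.sum_sigma]
    refine Finset.sum_congr rfl fun a _ => ?_
    rw [← np_sum (C₀ := sub some (A'.C b)) (U a) (A.kur a) (A.sm a).2.1 (A.sm a).2.2
      (fib_cpt (C := A'.C b) hC' hx') (fun i => mark_mem hC' hx' (some i))
      (p := (A'.C b).s none x) (mark_mem hC' hx' none)]
    refine Finset.sum_congr rfl fun j _ => finsum_congr fun y => ?_
    rw [finsum_eq_if]
    split_ifs with hy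
    · rfl
    · by_cases h0 : np (sub some (A'.C b)) x ((A'.C b).s none x) (A.C a) (((U a).c j).p y)
          (((U a).c j).e.symm y) = 0
      · rw [h0, Nat.cast_zero, zero_mul]
      · exact absurd (fun k => k fun _ => gen_of_np hC' (A.kur a).1 hx' (h1 hx') h0) hy
  · intro j b y₀ hy₀
    have hy' := ((U j.1).sm j.2).2.2 hy₀
    have hC := (A.kur j.1).1
    have hC' := (A'.kur b).1
    obtain ⟨E, Ψ, hE, hyE, h2⟩ := t5 L D _ _ _ y₀ hC (hev j y₀ hy')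
    obtain ⟨k, φ, Φ, hc⟩ := cnt k1 (A'.kur b) hE hyE (A'.sm b).2.2 (A'.sm b).2.1
    refine ⟨k, φ, fun l => (hc.self_of_nhds.1 l).2.1, ?_, fun l _ => ?_⟩
    · filter_upwards [hc, hE.1.mem_nhds hyE, (U.c j).e.open_target.mem_nhds hy']
        with y h3 h4 h5 h6 x hx
      obtain ⟨h7, h8⟩ := h2 y h4 (not_not.1 h6 h5).1
      rw [← h3.2 x hx]
      exact np_loc hC hE h4 h7 h8 hC' ((A'.sm b).2.2 hx)
    · have h1 : ∀ᶠ y in nae y₀, (∀ᶠ x in 𝓝 y, Mor E (A'.C b) (φ l) (Φ l) x) ∧ y ∈ E.B ∧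
          y ∈ (U.c j).e.target := mem_inf_of_left ((eventually_eventually_nhds.2
        (hc.mono fun x hx => hx.1 l)).and ((hE.1.eventually_mem hyE).and
          ((U.c j).e.open_target.eventually_mem hy')))
      have h3 : ∀ᶠ y in nae y₀, y ∈ (U.c j).e.target → Gen (A.C j.1) ((U.c j).e.symm y) ∧
          Sm (A.C j.1) ((U.c j).p y) := mem_inf_of_right (nx L D _ (A.kur j.1) _ (U.c j).hol)
      filter_upwards [h1, h3] with y ⟨h4, h5, h6⟩ h7
      obtain ⟨h8, h9⟩ := h7 h6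
      have hm : ∀ᶠ a in 𝓝 y, Mor (fg E) (fg (A.C j.1))
          (fun y => (A.C j.1).π ((U.c j).e.symm y)) Ψ a ∧
          ∀ o, Ψ (E.s o a) = mk (A.C j.1) ((U.c j).e.symm a) o := by
        filter_upwards [hE.1.mem_nhds h5, ((U.c j).e.continuousAt_symm h6).eventually
          ((isOpen_gen hC).mem_nhds h8)] with a h10 h11 using h2 a h10 h11
      rw [← ta.det, hfm, hU]
      exact congrArg tau (form_loc ps la chn hG hh hC hE hC' h5 ((U.c j).holAt h6) h8 h9 hm h4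
        (A.fr j.1 _ ((U.c j).p_mem hC y)) (A'.fr b _ h4.self_of_nhds.1) P n
        fun o => (yf.gen (U.c j) hh (A.kur j.1) o y h6).2 h8 h9)

end Vale.Agent.P269CD
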